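import Crest.Agent.X212.Alg43.Tot

/-!
# Row 212, layer AN-S (helper43): the null-homotopy of a double composite and the pentagon identity
-/

set_option autoImplicit false
set_option linter.unusedSectionVars false

open Module Function Filter

noncomputable section

namespace Crest.Agent.X212.Alg43

open Win22 Flo2
open Bor5 (K)

variable {S : Sk} {Z : Cs S} {a b c x : S.E} {I J M : Type}

/-- finitely many are alive and the total is `φ` -/
def Has (F : I → Mx Z a b) (φ : Mx Z a b) : Prop := Al F ∧ Leq (tot F) φ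

variable (Z) in
/-- the total of a family of classes -/
def zt (f : I → S.F a b) : Mx Z a b := tot fun i => Z.z (f i)

variable {F F' : I → Mx Z a b} {φ φ' : Mx Z a b}

theorem Al.has (h : Al F) : Has F (tot F) := ⟨h, Leq.rfl⟩

theorem has_z {f : I → S.F a b} (h : S.Prp f) : Has (fun i => Z.z (f i)) (zt Z f) := (alive h).has

theorem Has.add (h : Has F φ) (h' : Has F' φ') : Has (fun κ => F κ + F' κ) (φ + φ') :=
  ⟨h.1.add h'.1, (tot_add h.1 h'.1).trans (h.2.add h'.2)⟩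

theorem Al.sub (h : Al F) (p : I → Prop) : Al fun j : {j // p j} => F j :=
  h.comp Subtype.val_injective

theorem Al.half (h : Al F) {r : I → I} (rr : ∀ j, r (r j) = j) {p : I → Prop}
    (hr : ∀ j, p (r j) ↔ ¬p j) : Has (fun j : {j // p j} => F j + F (r j)) (tot F) :=
  ⟨(h.sub p).add (h.comp ((LeftInverse.injective rr).comp Subtype.val_injective)), tot_half h rr hr⟩

theorem Has.del (h' : Has F' φ) (h : Al F) (e : ∀ κ, Leq (del (F κ)) (F' κ)) :
    Leq (del (tot F)) φ := (del_tot h h'.1 e).trans h'.2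

/-- products over the compatible pairs -/
theorem has_cmp {f : I → S.F a b} {g : J → S.F b c} (hf : Al fun i => Z.z (f i))
    (hg : Al fun j => Z.z (g j)) (e : M → I × J) (he : Injective e)
    (hs : ∀ p, S.t (f p.1) = S.s (g p.2) → p ∈ Set.range e) :
    Has (fun k => mul (Z.z (f (e k).1)) (Z.z (g (e k).2))) (mul (zt Z f) (zt Z g)) :=
  ⟨(hf.prod' (fun _ => bd_z _) hg).comp he, by
    rw [tot_inj (F' := fun p : I × J => mul (Z.z (f p.1)) (Z.z (g p.2))) e he (fun _ => rfl)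
      fun p hp => mul_off fun h => hp (hs p h)]
    exact tot_prod hf (fun _ => bd_z _) hg⟩

theorem has_eqv {f : I → S.F a b} {g : J → S.F b c} (hf : S.Prp f) (hg : S.Prp g)
    (e : M ≃ {p : I × J // S.t (f p.1) = S.s (g p.2)}) :
    Has (fun k => mul (Z.z (f (e k).1.1)) (Z.z (g (e k).1.2))) (mul (zt Z f) (zt Z g)) :=
  has_cmp (alive hf) (alive hg) (fun k => (e k).1) (Subtype.val_injective.comp e.injective)
    fun p hp => ⟨e.symm ⟨p, hp⟩, by simp⟩

section
variable {f : S.Arr a b} {g : S.Arr b c} {h : S.Arr c a}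

variable (Z) in
/-- the total of the reflection paths -/
def γt (D : Sk.Dbl f g) : Mx Z a c := zt Z fun j : {j // D.half j} => D.γ j

variable (Z) in
/-- the null-homotopy -/
def nul (D : Sk.Dbl f g) : Mx Z a c := zt Z D.h + γt Z D

theorem bd_zt {f : I → S.F a b} (h : Al fun i => Z.z (f i)) : Bd (zt Z f) := h.bd fun _ => bd_z _

theorem bd_nul (D : Sk.Dbl f g) : Bd (nul Z D) :=
  (bd_zt (alive D.ph)).add (bd_zt ((alive D.pγ).sub _))

theorem del_nul (D : Sk.Dbl f g) : Leq (del (nul Z D)) (mul (zt Z f.f) (zt Z g.f)) := by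
  have h1 := ((has_z (Z := Z) D.pp).add (has_eqv f.prp g.prp D.e)).del (alive D.ph) fun j => by
    simpa [nkt] using mas_bd (Z := Z) (D.bh j)
  have h2 := ((alive (Z := Z) D.pp).half D.rr D.hr).del ((alive D.pγ).sub _) fun j => by
    simpa using mas_bd (Z := Z) (D.bγ j)
  rw [nul, del_add]
  refine (h1.and h2).mono fun m i k l => ?_
  have := k.1 l
  have := k.2 l
  simp only [Pi.add_apply, γt, zt] at *
  grind

end

/-! ### caps -/

theorem Cof.sigma [Fintype I] {C : I → Type} {q : (Σ i, C i) → ∀ m, (Z.A a).ι m → Prop}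
    (h : ∀ i, Cof Z a fun c => q ⟨i, c⟩) : Cof Z a q := fun r => by
  choose T hT using fun i => h i r
  exact ⟨Finset.univ.sigma T, (eventually_all.2 hT).mono fun m k i hi θ t =>
    k θ.1 i hi θ.2 fun u => t (Finset.mem_sigma.2 ⟨Finset.mem_univ _, u⟩)⟩

/-- all pieces glued to all caps -/
theorem has_cap {L : I → S.F3 a b x} {Q : J → S.F x S.one}
    (hL : Cof Z a fun n m i => ∀ k j, Z.z3 (L n) m i k j = 0) (hQ : Al fun j => Z.z (Q j)) :
    Has (fun p : I × J => cpt (Z := Z) ⟨x, L p.1, Q p.2⟩)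
      fun m i k => ∑ j, (∑ᶠ n, Z.z3 (L n) m i k j) * zt Z Q m j (Z.pt m) := by
  have H : Cof Z a fun (p : I × J) m i =>
      ∀ k j, Z.z3 (L p.1) m i k j * Z.z (Q p.2) m j (Z.pt m) = 0 := fun r => by
    obtain ⟨T, k⟩ := hL r
    obtain ⟨D, hD⟩ := Finite.exists_le fun n : T => Z.dg3 (L n)
    obtain ⟨w, hw⟩ := exists_low Z b
    obtain ⟨T', k'⟩ := hQ (r + D - w)
    refine ⟨T ×ˢ T', (k.and k').mono fun m h i hi p t l j => ?_⟩
    by_cases e : Z.z3 (L p.1) m i l j = 0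
    · rw [e, zero_mul]
    have u : p.1 ∈ T := by_contra fun v => e (h.1 i hi _ v l j)
    refine mul_eq_zero_of_right _ (h.2 j ?_ p.2 (fun v => t (Finset.mem_product.2 ⟨u, v⟩)) _)
    linarith [(Z.hz3 _ m i l j e).2.2.2, hD ⟨_, u⟩, hw m l]
  refine ⟨H.mono fun _ _ _ k l => Finset.sum_eq_zero fun j _ => k l j, fun r => ?_⟩
  obtain ⟨T, k⟩ := H r
  exact k.mono fun m k i hi l => fs_prod (x := fun n j => Z.z3 (L n) m i l j)
    (y := fun n j => Z.z (Q n) m j (Z.pt m)) fun j => fin_of T fun p t => k i hi p t l j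

/-- the caps of a family, reindexed -/
theorem Has.caps {σ : I → S.F a b} {F : M → Mx Z a b} (h : Has F φ) (e : M → Σ i, S.C (σ i))
    (he : Injective e) (h1 : ∀ t, cpt (S.cp _ (e t).2) = F t)
    (h0 : ∀ θ, θ ∉ Set.range e → cpt (Z := Z) (S.cp _ θ.2) = 0) :
    Has (fun i => tot fun c => cpt (S.cp (σ i) c)) φ := by
  have H : Al fun θ : Σ i, S.C (σ i) => cpt (Z := Z) (S.cp _ θ.2) := h.1.push e fun θ m i k l => by
    beta_reduce
    by_cases u : θ ∈ Set.range e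
    · obtain ⟨t, rfl⟩ := u
      rw [h1, k t rfl]
    · rw [h0 θ u]; rfl
  refine ⟨H.push Sigma.fst fun κ m i k l => finsum_eq_zero_of_forall_eq_zero fun c =>
    k ⟨κ, c⟩ rfl l, Leq.trans ?_ h.2⟩
  rw [tot_inj (F' := fun θ : Σ i, S.C (σ i) => cpt (S.cp _ θ.2)) e he h1 h0]
  exact H.fin.mono fun m i k l => fs_sigma (k l)

theorem cpt_dead {θ : Σ x, S.F3 a b x × S.F x S.one} (h : S.dead θ.1) : cpt (Z := Z) θ = 0 := by
  funext m i k
  have := Z.dead _ h m
  exact Finset.sum_of_isEmpty _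

theorem has_live {σ : I → S.F a b} {L : M → S.F3 a b x} {Q : J → S.F x S.one}
    (hL : Cof Z a fun n m i => ∀ k j, Z.z3 (L n) m i k j = 0) (hQ : S.Prp Q)
    (β : {θ : Σ i, S.C (σ i) // ¬S.dead (S.cp _ θ.2).1} ≃ M × J)
    (hβ : ∀ θ, S.cp _ θ.1.2 = ⟨x, L (β θ).1, Q (β θ).2⟩) :
    Has (fun i => tot fun c => cpt (S.cp (σ i) c))
      fun m i k => ∑ j, (∑ᶠ n, Z.z3 (L n) m i k j) * zt Z Q m j (Z.pt m) :=
  (has_cap hL (alive hQ)).caps (fun p => (β.symm p).1)
    (Subtype.val_injective.comp β.symm.injective) (fun t => by rw [hβ, β.apply_symm_apply])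
    fun θ u => cpt_dead (by_contra fun v => u ⟨β ⟨θ, v⟩, by simp⟩)

variable {f : S.Arr a b} {g : S.Arr b c} {h : S.Arr c a} {D0 : Sk.Dbl f g} {D1 : Sk.Dbl g h}
  {N : S.Cap} {T : f.I → g.I → h.I → Prop} (P : Sk.Pen D0 D1 N T)

theorem r1_half (k : P.M) : D0.half (P.e0 (P.r1 k)).1.1 ↔ ¬D0.half (P.e0 k).1.1 := by
  rw [P.er1]; exact D0.hr _

theorem r2_half (k : P.M) : D1.half (P.e1 (P.r2 k)).1.2 ↔ ¬D1.half (P.e1 k).1.2 := by
  rw [P.er2]; exact D1.hr _

theorem r1_r1 (k : P.M) : P.r1 (P.r1 k) = k :=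
  P.e0.injective (Subtype.ext (by rw [P.er1, P.er1, D0.rr]))

theorem r2_r2 (k : P.M) : P.r2 (P.r2 k) = k :=
  P.e1.injective (Subtype.ext (by rw [P.er2, P.er2, D1.rr]))

theorem cof_Lc : Cof Z a fun n m i => ∀ k j, Z.z3 (P.Lc n) m i k j = 0 :=
  ((Cof.sigma (q := fun (θ : Σ t, S.C (P.κ t)) m i => ∀ k j, Z.z3 (S.cp _ θ.2).2.1 m i k j = 0)
    fun t => cof_cp (P.κ t)).comp P.β0.symm.injective).mono fun n m i k => by
      rwa [P.c0, P.β0.apply_symm_apply] at k

variable (Z) in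
/-- the cap term -/
def capT : Mx Z a a := fun m i k => ∑ j, (∑ᶠ n, Z.z3 (P.Lc n) m i k j) *
  (Z.z N.B m j (Z.pt m) + zt Z N.g1 m j (Z.pt m) + zt Z N.g2 m j (Z.pt m))

/-- **the pentagon identity** -/
theorem pen (P : Sk.Pen D0 D1 N) : ∃ G : Mx Z a a, Bd G ∧ Leq (del G)
    (mul (nul Z D0) (zt Z h.f) + mul (zt Z f.f) (nul Z D1) + (zt Z P.ι + capT Z P)) := by
  obtain ⟨pQ, pA, pB, pS1, pS2, pΓ1, pΓ2, pR1, pR2, pρ⟩ := P.prp
  have aκ : Al fun t => Z.z (P.κ t) := Cof.fintype _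
  have h1 := (((has_z (Z := Z) pA).add (has_z pB)).add ((has_cmp (alive f.prp) (alive D1.ph) _
    (Subtype.val_injective.comp P.e1.injective) fun p hp => ⟨P.e1.symm ⟨p, hp, trivial⟩, by simp⟩).add
    (has_cmp (alive D0.ph) (alive h.prp) _ (Subtype.val_injective.comp P.e0.injective)
      fun p hp => ⟨P.e0.symm ⟨p, hp, trivial⟩, by simp⟩))).del (alive pQ) fun k => by
      simpa [nkt] using mas_bd (Z := Z) (P.bQ k)
  have h2 := ((((alive (Z := Z) pB).half (r1_r1 P) (r1_half P)).add ((alive pΓ1).sub _).has).add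
    (has_cmp ((alive D0.pγ).sub D0.half) (alive h.prp)
      (fun k : {k // D0.half (P.e0 k).1.1} => (⟨(P.e0 k).1.1, k.2⟩, (P.e0 k).1.2))
      (fun k k' e => Subtype.ext (P.e0.injective (Subtype.ext (by
        simp only [Prod.mk.injEq, Subtype.mk.injEq] at e; exact Prod.ext e.1 e.2))))
      fun p hp => ⟨⟨P.e0.symm ⟨(p.1, p.2), D0.tγ _ ▸ hp, trivial⟩, by simpa using p.1.2⟩, by simp⟩)).del
    ((alive pS1).sub _) fun k => by simpa [nkt, add_assoc] using mas_bd (Z := Z) (P.bS1 k)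
  have h3 := ((((alive (Z := Z) pA).half (r2_r2 P) (r2_half P)).add ((alive pΓ2).sub _).has).add
    (has_cmp (alive f.prp) ((alive D1.pγ).sub D1.half)
      (fun k : {k // D1.half (P.e1 k).1.2} => ((P.e1 k).1.1, ⟨(P.e1 k).1.2, k.2⟩))
      (fun k k' e => Subtype.ext (P.e1.injective (Subtype.ext (by
        simp only [Prod.mk.injEq, Subtype.mk.injEq] at e; exact Prod.ext e.1 e.2))))
      fun p hp => ⟨⟨P.e1.symm ⟨(p.1, p.2), D1.sγ _ ▸ hp, trivial⟩, by simpa using p.2.2⟩, by simp⟩)).del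
    ((alive pS2).sub _) fun k => by simpa [nkt, add_assoc] using mas_bd (Z := Z) (P.bS2 k)
  have h4 := ((((alive (Z := Z) pΓ1).sub _).has.add ((alive pρ).half (r1_r1 P) (r1_half P))).add
    (has_live (cof_Lc P) N.p1 P.β1 P.c1)).del ((alive pR1).sub _) fun k => by
      simpa using mas (Z := Z) _ (P.bR1 k).1 (.of_eq (P.bR1 k).2)
  have h5 := ((((alive (Z := Z) pΓ2).sub _).has.add ((alive pρ).half (r2_r2 P) (r2_half P))).add
    (has_live (cof_Lc P) N.p2 P.β2 P.c2)).del ((alive pR2).sub _) fun k => by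
      simpa using mas (Z := Z) _ (P.bR2 k).1 (.of_eq (P.bR2 k).2)
  have h6 := ((Al.has (F := fun t => Z.z (P.ι t)) (Cof.fintype _)).add
    ((has_cap (Q := fun _ : Unit => N.B) (cof_Lc P) (Cof.fintype _)).caps (fun p => P.β0.symm p.1)
      (fun p p' e => Prod.ext (P.β0.symm.injective e) rfl)
      (fun t => by rw [P.c0, P.β0.apply_symm_apply])
      fun θ u => (u ⟨(P.β0 θ, ()), by simp⟩).elim)).del aκ fun t => by
      simpa using mas (Z := Z) _ (.of_eq (P.bκ t).1) (.of_eq (P.bκ t).2)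
  refine ⟨_, (((((bd_zt (alive pQ)).add (bd_zt ((alive pS1).sub fun k => D0.half (P.e0 k).1.1))).add
    (bd_zt ((alive pS2).sub fun k => D1.half (P.e1 k).1.2))).add
    (bd_zt ((alive pR1).sub fun k => D0.half (P.e0 k).1.1))).add
    (bd_zt ((alive pR2).sub fun k => D1.half (P.e1 k).1.2))).add (bd_zt aκ), ?_⟩
  simp only [del_add, nul, mul_add', add_mul']
  refine (h1.and (h2.and (h3.and (h4.and (h5.and h6))))).mono fun m i k l => ?_
  have k1 := k.1 l
  have k2 := k.2.1 l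
  have k3 := k.2.2.1 l
  have k4 := k.2.2.2.1 l
  have k5 := k.2.2.2.2.1 l
  have k6 := k.2.2.2.2.2 l
  have e : zt Z (fun _ : Unit => N.B) = Z.z N.B := by
    funext m i k; exact finsum_unique _
  rw [e] at k6
  simp only [Pi.add_apply, γt, capT, mul_add, Finset.sum_add_distrib] at *
  simp only [zt] at *
  rw [k1, k2, k3, k4, k5, k6]
  grind

/-- the cap term lowers the degree -/
theorem capT_low (hN : Z.Good N) : ∀ᶠ m in atTop, ∀ i k, capT Z P m i k ≠ 0 →
    ∃ t, ((Z.A a).lab m k).2 < ((Z.A a).lab m i).2 + Z.dg (P.ι t) := by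
  refine hN.2.2.mono fun m ⟨j0, hB, hg⟩ i k e => ?_
  obtain ⟨j, -, e⟩ := Finset.exists_ne_zero_of_sum_ne_zero e
  have d : ∀ {Q : S.F N.x S.one} {j}, Z.z Q m j (Z.pt m) ≠ 0 →
      ((Z.A N.x).lab m j).2 = -Z.dg Q := fun {Q j} h => by
    have := Z.pt_deg m
    rw [(Z.hz Q m j _ h).2] at this
    linarith
  have d0 := d (hB ▸ one_ne_zero : Z.z N.B m j0 (Z.pt m) ≠ 0)
  have hj : j ≠ j0 := by
    rintro rfl
    refine right_ne_zero_of_mul e ?_
    rw [add_assoc, hB]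
    exact (congrArg (1 + ·) hg).trans (CharTwo.add_self_eq_zero _)
  have h1 : ((Z.A N.x).lab m j).2 ≠ -Z.dg N.B := fun u => hj (Z.thin _ N.thin m _ _ (u.trans d0.symm))
  have h2 : -Z.dg N.B ≤ ((Z.A N.x).lab m j).2 := by
    by_contra u
    refine right_ne_zero_of_mul e ?_
    rw [show Z.z N.B m j (Z.pt m) = 0 from by_contra fun v => h1 (d v),
      show zt Z N.g1 m j (Z.pt m) = 0 from finsum_eq_zero_of_forall_eq_zero fun t =>
        by_contra fun v => u (d v ▸ neg_le_neg (hN.1 t)),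
      show zt Z N.g2 m j (Z.pt m) = 0 from finsum_eq_zero_of_forall_eq_zero fun t =>
        by_contra fun v => u (d v ▸ neg_le_neg (hN.2.1 t)), add_zero, add_zero]
  obtain ⟨n, hn⟩ : ∃ n, Z.z3 (P.Lc n) m i k j ≠ 0 := by_contra fun u =>
    left_ne_zero_of_mul e (finsum_eq_zero_of_forall_eq_zero fun n => by_contra fun v => u ⟨n, v⟩)
  obtain ⟨θ, rfl⟩ := P.β0.surjective n
  have h3 := Z.dg_cp _ θ.2
  rw [P.c0] at h3
  have h4 := Z.dg_fc (P.κ θ.1) (P.ι θ.1) (by simp [(P.bκ _).1])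
  exact ⟨θ.1, by linarith [h3 P.live, (Z.hz3 _ m i k j hn).2.2.2, lt_of_le_of_ne h2 h1.symm]⟩

end Crest.Agent.X212.Alg43
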