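import Crest.Agent.X212.Flo2.Alg

/-!
# Row 212, layer AN-S (helper43): totals of families of counts, the local matrix calculus
-/

set_option autoImplicit false
set_option linter.unusedSectionVars false

open Module Function Filter

noncomputable section

namespace Crest.Agent.X212.Alg43

open Win22 Flo2
open Bor5 (K)

section scal

variable {I J : Type}

theorem fs_inj {φ : I → K} {ψ : J → K} (e : I → J) (he : Injective e) (h : ∀ i, ψ (e i) = φ i)
    (h0 : ∀ j, j ∉ Set.range e → ψ j = 0) : ∑ᶠ i, φ i = ∑ᶠ j, ψ j := by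
  rw [← funext h, ← finsum_mem_range he, ← finsum_mem_inter_support,
    Set.inter_eq_right.2 (show support ψ ⊆ Set.range e from fun j hj =>
      by_contra fun k => hj (h0 j k)), finsum_mem_support]

theorem fin_of {φ : I → K} (T : Finset I) (h : ∀ i ∉ T, φ i = 0) : HasFiniteSupport φ :=
  T.finite_toSet.subset fun i hi => by_contra fun k => hi (h i k)

theorem fs_prod {ι : Type} [Fintype ι] {x : I → ι → K} {y : J → ι → K}
    (h : ∀ j, HasFiniteSupport fun p : I × J => x p.1 j * y p.2 j) :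
    ∑ᶠ p : I × J, ∑ j, x p.1 j * y p.2 j = ∑ j, (∑ᶠ a, x a j) * ∑ᶠ b, y b j := by
  rw [finsum_sum_comm _ _ fun j _ => h j]
  refine Finset.sum_congr rfl fun j _ => ?_
  rw [finsum_curry _ (h j), finsum_mul]
  exact finsum_congr fun a => (mul_finsum (fun b => y b j) (x a j)).symm

theorem fs_half {φ : I → K} (h : HasFiniteSupport φ) {r : I → I} (rr : ∀ j, r (r j) = j)
    {p : I → Prop} (hr : ∀ j, p (r j) ↔ ¬p j) :
    ∑ᶠ j : {j // p j}, (φ j + φ (r j)) = ∑ᶠ j, φ j := by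
  classical
  have i : Injective fun j : {j // p j} => r j :=
    (LeftInverse.injective rr).comp Subtype.val_injective
  rw [finsum_add_distrib (h.preimage Subtype.val_injective.injOn) (h.preimage i.injOn),
    fs_inj (ψ := fun j => if p j then φ j else 0) Subtype.val Subtype.val_injective
      (fun j => if_pos j.2) fun j hj => if_neg fun k => hj ⟨⟨j, k⟩, rfl⟩,
    fs_inj (ψ := fun j => if p j then 0 else φ j) _ i (fun j => if_neg fun k => (hr _).1 k j.2)
      fun j hj => if_pos (by_contra fun k => hj ⟨⟨r j, (hr j).2 k⟩, rr j⟩),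
    ← finsum_add_distrib (h.subset fun j hj k => hj (by simp [k]))
      (h.subset fun j hj k => hj (by simp [k]))]
  exact finsum_congr fun j => by split_ifs <;> simp

theorem fs_sigma {C : I → Type} {φ : (Σ i, C i) → K} (h : HasFiniteSupport φ) :
    ∑ᶠ i, ∑ᶠ c, φ ⟨i, c⟩ = ∑ᶠ θ, φ θ := by
  classical
  have e : ∀ i, ∑ᶠ c, φ ⟨i, c⟩ = ∑ θ ∈ h.toFinset, if θ.1 = i then φ θ else 0 := fun i => by
    rw [fs_inj (ψ := fun θ => if θ.1 = i then φ θ else 0) (Sigma.mk i) sigma_mk_injective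
      (fun _ => if_pos rfl) fun θ hθ => if_neg (by rintro rfl; exact hθ ⟨θ.2, rfl⟩)]
    exact finsum_eq_sum_of_support_subset _ fun θ hθ => by
      simpa using fun k => hθ (by simp [k])
  simp only [e]
  rw [finsum_sum_comm _ _ fun θ _ => fin_of {θ.1} fun i hi => if_neg fun k => hi (by simp [k]),
    finsum_eq_sum _ h]
  exact Finset.sum_congr rfl fun θ _ =>
    (finsum_eq_single _ θ.1 fun i hi => if_neg (Ne.symm hi)).trans (if_pos rfl)

end scal

variable {S : Sk} {Z : Cs S} {a b c : S.E} {I J : Type}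

/-- matrices at all levels -/
abbrev Mx (Z : Cs S) (a b : S.E) : Type := ∀ m, (Z.A a).ι m → (Z.A b).ι m → K

/-- true in every bounded range of degrees, eventually -/
def Ev (Z : Cs S) (a : S.E) (p : ∀ m, (Z.A a).ι m → Prop) : Prop :=
  ∀ r, ∀ᶠ m in atTop, ∀ i, ((Z.A a).lab m i).2 ≤ r → p m i

/-- true off a finite set of indices -/
def Cof (Z : Cs S) (a : S.E) (q : I → ∀ m, (Z.A a).ι m → Prop) : Prop :=
  ∀ r, ∃ T : Finset I, ∀ᶠ m in atTop, ∀ i, ((Z.A a).lab m i).2 ≤ r → ∀ κ ∉ T, q κ m i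

/-- locally equal -/
def Leq (φ ψ : Mx Z a b) : Prop := Ev Z a fun m i => ∀ k, φ m i k = ψ m i k

/-- finitely many are alive -/
def Al (φ : I → Mx Z a b) : Prop := Cof Z a fun κ m i => ∀ k, φ κ m i k = 0

/-- bounded -/
def Bd (φ : Mx Z a b) : Prop := ∀ r, ∃ r', ∀ᶠ m in atTop, ∀ i k, ((Z.A a).lab m i).2 ≤ r →
  φ m i k ≠ 0 → ((Z.A b).lab m k).2 ≤ r'

/-- first `φ`, then `ψ` -/
def mul (φ : Mx Z a b) (ψ : Mx Z b c) : Mx Z a c := fun m i k => ∑ j, φ m i j * ψ m j k

/-- the total -/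
def tot (φ : I → Mx Z a b) : Mx Z a b := fun m i k => ∑ᶠ κ, φ κ m i k

/-- `d φ + φ d` -/
def del (φ : Mx Z a b) : Mx Z a b := mul (Z.d a) φ + mul φ (Z.d b)

variable {p p' : ∀ m, (Z.A a).ι m → Prop} {φ φ' φ'' : Mx Z a b} {ψ ψ' : Mx Z b c}
  {F F' : I → Mx Z a b} {G : J → Mx Z b c}

theorem Ev.mono (h : Ev Z a p) (k : ∀ m i, p m i → p' m i) : Ev Z a p' :=
  fun r => (h r).mono fun m h i hi => k m i (h i hi)

theorem Ev.and (h : Ev Z a p) (h' : Ev Z a p') : Ev Z a fun m i => p m i ∧ p' m i :=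
  fun r => ((h r).and (h' r)).mono fun _ h i hi => ⟨h.1 i hi, h.2 i hi⟩

theorem Ev.all (h : ∀ m i, p m i) : Ev Z a p := fun _ => Eventually.of_forall fun m i _ => h m i

theorem Ev.of_ev {q : ℕ → Prop} (h : ∀ᶠ m in atTop, q m) : Ev Z a fun m _ => q m :=
  fun _ => h.mono fun _ h _ _ => h

theorem Bd.ev (h : Bd φ) {q : ∀ m, (Z.A b).ι m → Prop} (hq : Ev Z b q) :
    Ev Z a fun m i => ∀ j, φ m i j ≠ 0 → q m j := fun r =>
  let ⟨r', k⟩ := h r; (k.and (hq r')).mono fun _ h i hi j hj => h.2 j (h.1 i j hi hj)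

theorem Cof.ev {q : I → ∀ m, (Z.A a).ι m → Prop} {q' : I → ∀ m, (Z.A a).ι m → Prop}
    (h : Cof Z a q) (h' : ∀ κ, Ev Z a (q' κ)) : Ev Z a fun m i => ∀ κ, q κ m i ∨ q' κ m i := fun r =>
  let ⟨T, k⟩ := h r
  (k.and ((eventually_all_finset T).2 fun κ _ => h' κ r)).mono fun _ h i hi κ =>
    (em (κ ∈ T)).elim (fun j => Or.inr (h.2 κ j i hi)) fun j => Or.inl (h.1 i hi κ j)

theorem Cof.and {q q' : I → ∀ m, (Z.A a).ι m → Prop} (h : Cof Z a q) (h' : Cof Z a q') :
    Cof Z a fun κ m i => q κ m i ∧ q' κ m i := fun r => by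
  classical
  obtain ⟨T, k⟩ := h r
  obtain ⟨T', k'⟩ := h' r
  exact ⟨T ∪ T', (k.and k').mono fun _ h i hi κ j => ⟨h.1 i hi κ fun t => j (by simp [t]),
    h.2 i hi κ fun t => j (by simp [t])⟩⟩

theorem Cof.mono {q q' : I → ∀ m, (Z.A a).ι m → Prop} (h : Cof Z a q)
    (k : ∀ κ m i, q κ m i → q' κ m i) : Cof Z a q' :=
  fun r => (h r).imp fun _ h => h.mono fun m h i hi κ j => k κ m i (h i hi κ j)

theorem Cof.comp {q : I → ∀ m, (Z.A a).ι m → Prop} (h : Cof Z a q) {e : J → I}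
    (he : Injective e) : Cof Z a fun κ => q (e κ) := fun r =>
  let ⟨T, k⟩ := h r
  ⟨T.preimage e he.injOn, k.mono fun _ h i hi _ j => h i hi _ fun t => j (Finset.mem_preimage.2 t)⟩

/-- push forward: every index of `J` is good or comes from `I` -/
theorem Cof.push {q : I → ∀ m, (Z.A a).ι m → Prop} {q' : J → ∀ m, (Z.A a).ι m → Prop}
    (h : Cof Z a q) (e : I → J) (k : ∀ κ m i, (∀ t, e t = κ → q t m i) → q' κ m i) :
    Cof Z a q' := fun r => by
  classical
  obtain ⟨T, j⟩ := h r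
  exact ⟨T.image e, j.mono fun m h i hi κ hκ => k κ m i fun t ht =>
    h i hi t fun s => hκ (ht ▸ Finset.mem_image_of_mem e s)⟩

theorem Cof.fintype [Fintype I] (q : I → ∀ m, (Z.A a).ι m → Prop) : Cof Z a q :=
  fun _ => ⟨Finset.univ, Eventually.of_forall fun _ _ _ _ h => absurd (Finset.mem_univ _) h⟩

theorem Al.fin (h : Al F) : Ev Z a fun m i => ∀ k, HasFiniteSupport fun κ => F κ m i k := fun r =>
  let ⟨T, k⟩ := h r; k.mono fun _ h i hi l => fin_of T fun κ j => h i hi κ j l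

theorem Al.add (h : Al F) (h' : Al F') : Al fun κ => F κ + F' κ :=
  (h.and h').mono fun _ _ _ k l => by simp [k.1 l, k.2 l]

theorem Al.mul_right (h : Al F) (ψ : Mx Z b c) : Al fun κ => mul (F κ) ψ :=
  h.mono fun _ _ _ k l => by simp [mul, k]

theorem Al.mul_left (h : Al G) (hφ : Bd φ) : Al fun κ => mul φ (G κ) := fun r =>
  let ⟨r', k⟩ := hφ r
  let ⟨T, j⟩ := h r'
  ⟨T, (k.and j).mono fun m h i hi κ t l => Finset.sum_eq_zero fun s _ => by
    by_cases e : φ m i s = 0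
    · rw [e, zero_mul]
    · rw [h.2 s (h.1 i s hi e) κ t, mul_zero]⟩

theorem bd_of (x : ℚ) (h : ∀ m i k, φ m i k ≠ 0 → ((Z.A b).lab m k).2 ≤ ((Z.A a).lab m i).2 + x) :
    Bd φ := fun r => ⟨r + x, Eventually.of_forall fun m i k hi e => by linarith [h m i k e]⟩

theorem bd_d (a : S.E) : Bd (Z.d a) := bd_of 0 fun m i k h => by
  rw [Z.hom a m i k h]; simp [sh]

theorem bd_z (σ : S.F a b) : Bd (Z.z σ) := bd_of (Z.dg σ) fun m i k h => by
  rw [(Z.hz σ m i k h).2]

theorem Bd.add (h : Bd φ) (h' : Bd φ') : Bd (φ + φ') := fun r =>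
  let ⟨s, k⟩ := h r
  let ⟨s', k'⟩ := h' r
  ⟨max s s', (k.and k').mono fun m h i l hi e => by
    by_cases j : φ m i l = 0
    · exact (h.2 i l hi fun t => e (by simp [j, t])).trans (le_max_right _ _)
    · exact (h.1 i l hi j).trans (le_max_left _ _)⟩

theorem Al.bd' (h : Al F) (hb : ∀ κ, Bd (F κ)) (r : ℚ) : ∃ r', ∀ᶠ m in atTop, ∀ κ i k,
    ((Z.A a).lab m i).2 ≤ r → F κ m i k ≠ 0 → ((Z.A b).lab m k).2 ≤ r' := by
  obtain ⟨T, k⟩ := h r
  choose s hs using fun κ => hb κ r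
  obtain ⟨x, hx⟩ := Finite.exists_le fun κ : T => s κ
  refine ⟨x, (k.and ((eventually_all_finset T).2 fun κ _ => hs κ)).mono fun m h κ i l hi e => ?_⟩
  have t : κ ∈ T := by_contra fun t => e (h.1 i hi κ t l)
  exact (h.2 κ t i l hi e).trans (hx ⟨κ, t⟩)

theorem Al.bd (h : Al F) (hb : ∀ κ, Bd (F κ)) : Bd (tot F) := fun r =>
  (h.bd' hb r).imp fun _ k => k.mono fun m k i l hi e => by
    by_contra j
    exact e (finsum_eq_zero_of_forall_eq_zero fun κ => by_contra fun t => j (k κ i l hi t))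

theorem Al.prod (h : Al F) (hb : ∀ κ, Bd (F κ)) (h' : Al G) :
    Cof Z a fun (p : I × J) m i => ∀ j k, F p.1 m i j * G p.2 m j k = 0 := fun r => by
  obtain ⟨T, k⟩ := h r
  obtain ⟨s, hs⟩ := h.bd' hb r
  obtain ⟨T', k'⟩ := h' s
  refine ⟨T ×ˢ T', (k.and (hs.and k')).mono fun m h i hi p t j l => ?_⟩
  by_cases e : F p.1 m i j = 0
  · rw [e, zero_mul]
  · rw [h.2.2 j (h.2.1 _ i j hi e) p.2 (fun u => t (Finset.mem_product.2
      ⟨by_contra fun v => e (h.1 i hi _ v j), u⟩)), mul_zero]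

theorem Al.prod' (h : Al F) (hb : ∀ κ, Bd (F κ)) (h' : Al G) :
    Al fun p : I × J => mul (F p.1) (G p.2) :=
  (h.prod hb h').mono fun _ _ _ k l => Finset.sum_eq_zero fun j _ => k j l

theorem Leq.rfl : Leq φ φ := Ev.all fun _ _ _ => Eq.refl _

theorem Leq.symm (h : Leq φ φ') : Leq φ' φ := h.mono fun _ _ k l => (k l).symm

theorem Leq.trans (h : Leq φ φ') (h' : Leq φ' φ'') : Leq φ φ'' :=
  (h.and h').mono fun _ _ k l => (k.1 l).trans (k.2 l)

theorem Leq.add {χ χ' : Mx Z a b} (h : Leq φ φ') (h' : Leq χ χ') : Leq (φ + χ) (φ' + χ') :=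
  (h.and h').mono fun _ _ k l => congrArg₂ (· + ·) (k.1 l) (k.2 l)

theorem tot_congr (h : Al F) (h' : Al F') (e : ∀ κ, Leq (F κ) (F' κ)) : Leq (tot F) (tot F') :=
  ((h.and h').ev e).mono fun _ _ k l => finsum_congr fun κ =>
    (k κ).elim (fun t => (t.1 l).trans (t.2 l).symm) fun t => t l

theorem tot_add (h : Al F) (h' : Al F') : Leq (tot fun κ => F κ + F' κ) (tot F + tot F') :=
  (h.fin.and h'.fin).mono fun _ _ k l => finsum_add_distrib (k.1 l) (k.2 l)

theorem tot_prod (h : Al F) (hb : ∀ κ, Bd (F κ)) (h' : Al G) :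
    Leq (tot fun p : I × J => mul (F p.1) (G p.2)) (mul (tot F) (tot G)) := fun r =>
  let ⟨T, k⟩ := h.prod hb h' r
  k.mono fun m k i hi l => fs_prod (x := fun κ j => F κ m i j) (y := fun κ j => G κ m j l)
    fun j => fin_of T fun p t => k i hi p t j l

theorem tot_mul (h : Al F) (ψ : Mx Z b c) : Leq (tot fun κ => mul (F κ) ψ) (mul (tot F) ψ) :=
  h.fin.mono fun m i k l => by
    simp only [tot, mul, finsum_mul]
    exact finsum_sum_comm _ _ fun j _ => (k j).subset fun κ t e => t (by simp [e])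

theorem mul_tot (hφ : Bd φ) (h : Al G) : Leq (tot fun κ => mul φ (G κ)) (mul φ (tot G)) :=
  (hφ.ev h.fin).mono fun m i k l => by
    simp only [tot, mul, mul_finsum]
    refine finsum_sum_comm _ _ fun j _ => ?_
    by_cases e : φ m i j = 0
    · exact fin_of ∅ fun _ _ => by rw [e, zero_mul]
    · exact (k j e l).subset fun κ t e => t (by simp [e])

theorem tot_half (h : Al F) {r : I → I} (rr : ∀ j, r (r j) = j) {p : I → Prop}
    (hr : ∀ j, p (r j) ↔ ¬p j) : Leq (tot fun j : {j // p j} => F j + F (r j)) (tot F) :=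
  h.fin.mono fun _ _ k l => fs_half (k l) rr hr

theorem tot_inj {F' : J → Mx Z a b} (e : I → J) (he : Injective e) (h : ∀ i, F' (e i) = F i)
    (h0 : ∀ j, j ∉ Set.range e → F' j = 0) : tot F = tot F' := by
  funext m i k
  exact fs_inj e he (fun t => by rw [h]) fun j hj => by rw [h0 j hj]; rfl

/-- the boundary of a total -/
theorem del_tot (h : Al F) (h' : Al F') (e : ∀ κ, Leq (del (F κ)) (F' κ)) :
    Leq (del (tot F)) (tot F') :=
  (((tot_add (h.mul_left (bd_d a)) (h.mul_right _)).trans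
    ((mul_tot (bd_d a) h).add (tot_mul h _))).symm).trans
    (tot_congr ((h.mul_left (bd_d a)).add (h.mul_right _)) h' e)

theorem del_add : del (φ + φ') = del φ + del φ' := by
  funext m i k
  simp only [del, mul, Pi.add_apply, mul_add, add_mul, Finset.sum_add_distrib]
  ring

theorem mul_add' : mul φ (ψ + ψ') = mul φ ψ + mul φ ψ' := by
  funext m i k
  simp only [mul, Pi.add_apply, mul_add, Finset.sum_add_distrib]

theorem add_mul' : mul (φ + φ') ψ = mul φ ψ + mul φ' ψ := by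
  funext m i k
  simp only [mul, Pi.add_apply, add_mul, Finset.sum_add_distrib]

theorem exists_low (Z : Cs S) (a : S.E) : ∃ w, ∀ m i, w ≤ ((Z.A a).lab m i).2 := by
  have := (Z.A a).fin
  obtain ⟨x, hx⟩ := Finite.exists_le fun s => -(Z.A a).w s
  refine ⟨-x, fun m i => ?_⟩
  obtain ⟨k, e⟩ := (Z.A a).lat m i
  have := hx ((Z.A a).lab m i).1
  have : (0 : ℚ) ≤ k := Nat.cast_nonneg k
  linarith

/-- finitely many members of degree `≥ -ρ` are alive -/
theorem alive_ge {f : I → S.F a b} (h : S.Prp f) (ρ : ℚ) : ∃ T : Finset I,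
    Ev Z a fun m i => ∀ κ ∉ T, -ρ ≤ Z.dg (f κ) → ∀ k, Z.z (f κ) m i k = 0 := by
  obtain ⟨β, h, D, hD⟩ := h
  choose x hx using fun e => Z.bnd a b β e ρ
  obtain ⟨y, hy⟩ := Finite.exists_le fun e : D => x e
  refine ⟨(hD y).toFinset, fun r => ((eventually_all_finset D).2 fun e _ => hx e r).mono
    fun m k i hi κ t l j => by_contra fun u => t ?_⟩
  exact (hD y).mem_toFinset.2 fun e he => (k e he _ (h κ) i j l hi u).trans (hy ⟨e, he⟩)

theorem alive {f : I → S.F a b} (h : S.Prp f) : Al fun κ => Z.z (f κ) := fun r => by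
  obtain ⟨w, hw⟩ := exists_low Z b
  obtain ⟨T, k⟩ := alive_ge (Z := Z) h (r - w)
  refine ⟨T, (k r).mono fun m k i hi κ t j => by_contra fun u => u (k i hi κ t ?_ j)⟩
  have := hw m j
  rw [(Z.hz _ m i j u).2] at this
  linarith

/-- the term of a cap -/
def cpt (θ : Σ x, S.F3 a b x × S.F x S.one) : Mx Z a b :=
  fun m i k => ∑ j, Z.z3 θ.2.1 m i k j * Z.z θ.2.2 m j (Z.pt m)

/-- the term of a neck -/
def nkt (θ : Σ x, S.F a x × S.F x b) : Mx Z a b := mul (Z.z θ.2.1) (Z.z θ.2.2)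

theorem cof_cp (σ : S.F a b) : Cof Z a fun c m i => ∀ k j, Z.z3 (S.cp σ c).2.1 m i k j = 0 :=
  fun r => (Z.mas σ r).imp fun _ h => h.mono fun _ h i hi c t k => (h i hi k).1 c t

/-- the master equation -/
theorem mas (σ : S.F a b) {l : List (S.F a b)} {n : List (Σ x, S.F a x × S.F x b)}
    (hl : (S.fc σ).Perm l) (hn : (S.nk σ).Perm n) :
    Leq (del (Z.z σ)) ((l.map Z.z).sum + (n.map nkt).sum + tot fun c => cpt (S.cp σ c)) := fun r => by
  obtain ⟨D, h⟩ := Z.mas σ r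
  refine h.mono fun m h i hi k => (h i hi k).2.trans ?_
  simp only [Pi.add_apply, Pi.list_sum_apply, List.map_map]
  congr 1
  · congr 1
    exacts [(hl.map _).sum_eq, (hn.map _).sum_eq]
  · exact (finsum_eq_sum_of_support_subset _ fun c t => by_contra fun u => t
      (Finset.sum_eq_zero fun j _ => by rw [(h i hi k).1 c u, zero_mul])).symm

theorem mas_bd {σ : S.F a b} {l : List (S.F a b)} {n : List (Σ x, S.F a x × S.F x b)}
    (h : S.Bd σ l n) : Leq (del (Z.z σ)) ((l.map Z.z).sum + (n.map nkt).sum) :=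
  (mas σ h.fc h.nk).mono fun m i k l => by
    have := h.cp
    rw [k l, Pi.add_apply, Pi.add_apply, Pi.add_apply, tot, finsum_of_isEmpty, add_zero]

theorem mul_off {σ : S.F a b} {τ : S.F b c} (h : S.t σ ≠ S.s τ) : mul (Z.z σ) (Z.z τ) = 0 := by
  funext m i k
  refine Finset.sum_eq_zero fun j _ => by_contra fun e => h ?_
  rw [← (Z.hz τ m j k (right_ne_zero_of_mul e)).1, (Z.hz σ m i j (left_ne_zero_of_mul e)).2]

/-! ### from matrices to maps -/

/-- the maps of a bounded matrix -/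
def wm (φ : Mx Z a b) (h : Bd φ) : WM (Z.cx a).toWG (Z.cx b).toWG := Gen.wm φ h

theorem mat_mul (m : ℕ) (y : (Z.A a).ι m → K) : mat (mul φ ψ m) y = mat (ψ m) (mat (φ m) y) := by
  funext k
  simp only [mat_apply, mul, Finset.mul_sum, Finset.sum_mul, mul_assoc]
  exact Finset.sum_comm

theorem mat_add (m : ℕ) (y : (Z.A a).ι m → K) : mat ((φ + φ') m) y = mat (φ m) y + mat (φ' m) y := by
  funext k
  simp only [mat_apply, Pi.add_apply, mul_add, Finset.sum_add_distrib]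

theorem mat_del (m : ℕ) (y : (Z.A a).ι m → K) :
    mat (del φ m) y = mat (Z.d b m) (mat (φ m) y) + mat (φ m) (mat (Z.d a m) y) := by
  rw [del, mat_add, mat_mul, mat_mul, add_comm]

theorem Leq.loc (h : Leq φ φ') : (Z.cx a).Loc fun m y => mat (φ m) y = mat (φ' m) y :=
  (Z.A a).loc (fun m => mat (φ m)) (fun m => mat (φ' m)) fun r => (h r).mono fun m h i hi => by
    rw [mat_single, mat_single]; exact funext (h i hi)

theorem loc_mono {L : Type} {X : WG L} {q q' : ∀ m, X.H m → Prop} (h : X.Loc q)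
    (k : ∀ m y, q m y → q' m y) : X.Loc q' := fun r => (h r).mono fun m h y hy => k m y (h y hy)

/-- the total chain map of a family of points -/
def tch {f : I → S.F a b} (hp : ∀ κ, S.Pt (f κ)) (h : Al fun κ => Z.z (f κ)) :
    WCh (Z.cx a) (Z.cx b) where
  toWM := wm (tot fun κ => Z.z (f κ)) (h.bd fun _ => bd_z _)
  ch := loc_mono (del_tot h (F' := fun _ => 0) (fun _ => ⟨∅, Eventually.of_forall
      fun _ _ _ _ _ _ => rfl⟩) fun κ => by
        simpa using mas_bd (Z := Z) (l := []) (n := []) ⟨.of_eq (hp κ).fc, .of_eq (hp κ).nk,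
          (hp κ).cp⟩).loc fun m y k => by
    rw [mat_del] at k
    refine funext fun l => CharTwo.add_eq_zero.1 ((congrFun k l).trans ?_)
    simp [mat_apply, tot]

theorem tch_hm {f : I → S.F a b} (hp : ∀ κ, S.Pt (f κ)) (h : Al fun κ => Z.z (f κ)) (y : Z.H a) :
    (support fun κ => Z.hm (f κ) y).Finite ∧ (tch hp h).hm y = ∑ᶠ κ, Z.hm (f κ) y := by
  simp only [fun κ => Z.hm_eq (hp κ)]
  refine WCh.hm_finsum (fun κ => Z.ch (hp κ)) _ (fun r => (h r).imp fun T k => k.mono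
    fun m k y hy => ?_) y
  have hy' : ∀ i, ¬((Z.A a).lab m i).2 ≤ r → y i = 0 := ((Z.A a).le_eq m r ▸ hy :)
  refine ⟨fun κ t => funext fun l => Finset.sum_eq_zero fun i _ => ?_, funext fun l => ?_⟩
  · by_cases e : ((Z.A a).lab m i).2 ≤ r
    · exact mul_eq_zero_of_right _ (k i e κ t l)
    · exact mul_eq_zero_of_left (hy' i e) _
  · refine Eq.trans ?_ (Finset.sum_apply l T fun κ => mat (Z.z (f κ) m) y).symm
    show ∑ i, y i * ∑ᶠ κ, Z.z (f κ) m i l = ∑ κ ∈ T, ∑ i, y i * Z.z (f κ) m i l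
    rw [Finset.sum_comm]
    refine Finset.sum_congr rfl fun i _ => ?_
    by_cases e : ((Z.A a).lab m i).2 ≤ r
    · rw [finsum_eq_sum_of_support_subset (s := T) _ fun κ t => by_contra fun u => t (k i e κ u l),
        Finset.mul_sum]
    · simp [hy' i e]

end Crest.Agent.X212.Alg43
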