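import Crest.Agent.X212.Alg43.Pen

/-!
# Row 212, layer AN-S (helper43): the exact triangle (ALG-3) and the pentagon at the empty vertex
(ALG-4)
-/

set_option autoImplicit false
set_option linter.unusedSectionVars false

open Module Function Filter

noncomputable section

namespace Crest.Agent.X212.Alg43

open Win22 Flo2 WG
open Bor5 (K)

variable {S : Sk} (Z : Cs S) {a b c : S.E}

/-- the total chain map of an arrow -/
def ach (f : S.Arr a b) : WCh (Z.cx a) (Z.cx b) := tch f.pt (alive f.prp)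

theorem ach_hm (f : S.Arr a b) : Z.tot f = (ach Z f).hm :=
  funext fun y => (tch_hm f.pt (alive f.prp) y).2.symm

variable {f : S.Arr a b} {g : S.Arr b c} {h : S.Arr c a}

theorem nul_loc (D : Sk.Dbl f g) : (Z.cx a).Loc fun m x =>
    (Z.cx c).d m ((wm _ (bd_nul (Z := Z) D)).φ m x) + (wm _ (bd_nul D)).φ m ((Z.cx a).d m x) =
      (ach Z g).φ m ((ach Z f).φ m x) :=
  loc_mono (del_nul D).loc fun m y k => (mat_del m y).symm.trans (k.trans (mat_mul m y))

/-- the triangle -/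
def tri (D0 : Sk.Dbl f g) (D1 : Sk.Dbl g h) (D2 : Sk.Dbl h f) : WTri (Z.cx a) (Z.cx b) (Z.cx c) :=
  ⟨ach Z f, ach Z g, ach Z h, _, _, _, nul_loc Z D0, nul_loc Z D1, nul_loc Z D2⟩

variable {D0 : Sk.Dbl f g} {D1 : Sk.Dbl g h} {N : S.Cap} (P : Sk.Pen D0 D1 N)

variable {Z} in
/-- the map of a matrix -/
def mp (φ : Mx Z a b) (m : ℕ) : (Z.cx a).H m →ₗ[K] (Z.cx b).H m := mat (φ m)

theorem pen_loc : ∃ G : WM (Z.cx a).toWG (Z.cx a).toWG, (Z.cx a).Loc fun m x =>
    (Z.cx a).d m (G.φ m x) + G.φ m ((Z.cx a).d m x) =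
      (ach Z h).φ m ((wm _ (bd_nul D0)).φ m x) + (wm _ (bd_nul D1)).φ m ((ach Z f).φ m x) +
        (mp (zt Z P.ι) m x + mp (capT Z P) m x) :=
  let ⟨G, hG, e⟩ := pen (Z := Z) P
  ⟨wm G hG, loc_mono e.loc fun m y k => (mat_del m y).symm.trans (k.trans (by
    rw [mat_add, mat_add, mat_add, mat_mul, mat_mul]; rfl))⟩

theorem zt_id (hP : P.Id) : (Z.cx a).Loc fun m y => mp (zt Z P.ι) m y = y := by
  classical
  refine loc_mono (Leq.loc (φ' := fun m i k => if i = k then 1 else 0) fun r =>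
    (eventually_all.2 fun t => Z.idn _ (hP.idn t) r).mono fun m e i hi k => ?_)
    fun m y k => k.trans (funext fun l => by simp [mat_apply])
  obtain ⟨t, ht⟩ := hP.bij.2 ((Z.A a).lab m i).1
  refine (finsum_eq_single _ t fun t' u => ?_).trans ?_
  · exact (e t' i hi k).trans (if_neg fun v => u (hP.bij.1 (v.2.symm.trans ht.symm)))
  · simp [e t i hi, ← ht]

theorem exists_pent (D2 : Sk.Dbl h f) (hN : Z.Good N) (hP : P.Id) :
    Nonempty (tri Z D0 D1 D2).Pent := by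
  obtain ⟨G, e⟩ := pen_loc Z P
  have lo : ∀ᶠ m in atTop, ∀ i k, capT Z P m i k ≠ 0 →
      ((Z.A a).lab m k).2 < ((Z.A a).lab m i).2 := (capT_low P hN).mono fun m k i l u => by
    obtain ⟨t, ht⟩ := k i l u
    rwa [Z.dg_tp _ _ (hP.tp t), add_zero] at ht
  refine ⟨⟨G, WCh.id _, wm (capT Z P) fun r => ⟨r, lo.mono fun m k i l hi u =>
    (k i l u).le.trans hi⟩, fun r => ((e r).and (zt_id Z P hP r)).mono fun m k y hy => ?_,
    fun l => Eventually.of_forall fun m x hx => ((Z.cx a).g m).W_le_up (S := {k | k.2 = l.2}) rfl hx,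
    fun l => lo.mono fun m k => Gen.mat_up fun i j hi u => hi ▸ k i j u, ?_⟩⟩
  · refine (k.1 y hy).trans ?_
    rw [show mp (zt Z P.ι) m y = y from k.2 y hy]; rfl
  · rw [WCh.hm_id]; exact injective_id

/-- ALG-3 -/
theorem triStmt : TriStmt := fun _ Z _ _ _ f g _ D0 D1 D2 _ P P' hN hP hP' => by
  obtain ⟨p⟩ := exists_pent Z P D2 hN hP
  obtain ⟨q⟩ := exists_pent Z P' D0 hN hP'
  rw [ach_hm, ach_hm]
  exact (tri Z D0 D1 D2).exact p q

theorem d_one (m : ℕ) (y : (Z.cx S.one).H m) : (Z.cx S.one).d m y = 0 := by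
  refine funext fun k => Finset.sum_eq_zero fun i _ => mul_eq_zero_of_right _ (by_contra fun e => ?_)
  have h := congrArg Prod.snd (Z.hom _ m i k e)
  rw [Z.pt_eq m i, Z.pt_eq m k] at h
  simp only [sh] at h
  linarith

theorem mat_one (m : ℕ) (n : (Z.A S.one).ι m → (Z.A S.one).ι m → K) (y : (Z.A S.one).ι m → K) (k) :
    mat n y k = y k * n (Z.pt m) (Z.pt m) := by
  rw [mat_apply, Z.pt_eq m k]
  exact Finset.sum_eq_single _ (fun i _ u => (u (Z.pt_eq m i)).elim) (by simp)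

/-- ALG-4 -/
theorem pentStmt : PentStmt := fun S Z b c f g h D0 D1 N P hN hI ⟨t, ht⟩ hh y hy => by
  rw [ach_hm] at hh hy
  have hz : zt Z P.ι = Z.z (P.ι t) := by
    funext m i k; exact finsum_eq_single _ t fun t' u => (u (hI _ _)).elim
  have h1 : ∀ᶠ m in uf, Z.z (P.ι t) m (Z.pt m) (Z.pt m) ≠ 0 := by
    refine (Ultrafilter.em (hyperfilter ℕ) _).resolve_right fun u => ht ?_
    rw [Z.hm_eq (P.pι t)]
    refine Cx.hext fun x hx => ?_
    obtain ⟨xs, -, rx, -⟩ := exists_rp x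
    refine ((Z.cx _).cx.cls_congr _ (map_zero _) (((Z.ch (P.pι t)).rp rx).ext Rp.zero
      (u.mono fun m u => funext fun k => ?_))).trans ((Z.cx _).cx.cls_zero _)
    exact (mat_one Z m _ _ k).trans (mul_eq_zero_of_right _ (not_not.1 u))
  have h2 : ∀ t', Z.dg (P.ι t') = 0 := fun t' => by
    obtain ⟨m, u⟩ := h1.exists
    simpa [hI t' t] using congrArg Prod.snd (Z.hz _ m _ _ u).2
  have h3 : ∀ᶠ m in atTop, capT Z P m (Z.pt m) (Z.pt m) = 0 :=
    (capT_low P hN).mono fun m k => by_contra fun u => by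
      obtain ⟨t', v⟩ := k _ _ u
      simp [h2] at v
  obtain ⟨G, e⟩ := pen_loc Z P
  obtain ⟨x, hx, rfl⟩ := (Z.cx _).cx.exists_cls y
  obtain ⟨w, hw⟩ := ((Z.cx b).cx.cls_eq_zero ((ach Z f).isCh.cyc hx)).1 hy
  obtain ⟨xs, -, rx, -⟩ := exists_rp x
  obtain ⟨ws, -, rw', -⟩ := exists_rp w
  have e1 := ((Z.cx b).dM.rp rw').ev (show Rp _ ((Z.cx b).cx.d w) from hw ▸ (ach Z f).rp rx)
  have rv := ((wm _ (bd_nul (Z := Z) D0)).rp rx).add ((ach Z g).rp rw')
  have hv := ((Z.cx c).dM.rp rv).ext Rp.zero ((e1.and ((rx.loc (nul_loc Z D0)).and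
    (rw'.loc (ach Z g).ch))).mono fun m k => by
      have k1 : (Z.cx b).d m _ = _ := k.1
      have k2 := k.2.1
      rw [d_one, map_zero, add_zero] at k2
      show (Z.cx c).d m _ = 0
      rw [map_add, k2, k.2.2, k1]
      exact add_self2 K _)
  obtain ⟨s, hs⟩ := ((Z.cx S.one).cx.cls_eq_zero ((ach Z h).isCh.cyc hv)).1
    (hh ((Z.cx c).cx.cls _ hv))
  obtain ⟨ss, -, rs, -⟩ := exists_rp s
  have e2 := ((Z.cx S.one).dM.rp rs).ev
    (show Rp _ ((Z.cx S.one).cx.d s) from hs ▸ (ach Z h).rp rv)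
  refine ((Z.cx _).cx.cls_congr _ (map_zero _) (rx.ext Rp.zero ((h1.and ((ev_uf h3).and (e1.and
    (e2.and ((rx.loc e).and (rw'.loc (nul_loc Z D1))))))).mono fun m k => ?_))).trans
    ((Z.cx _).cx.cls_zero _)
  obtain ⟨k1, k2, k3, k4, k5, k6⟩ := k
  have k3 : (Z.cx b).d m _ = _ := k3
  have k4 : (Z.cx S.one).d m _ = _ := k4
  rw [d_one, map_add] at k4
  rw [d_one, zero_add, k3] at k6
  rw [d_one, d_one, map_zero, add_zero, k6, ← k4, zero_add, hz] at k5
  funext l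
  have k7 : (0 : K) = mat (Z.z (P.ι t) m) (xs m) l + mat (capT Z P m) (xs m) l := congrFun k5 l
  rw [mat_one, mat_one, k2, mul_zero, add_zero] at k7
  exact (mul_eq_zero.1 k7.symm).resolve_right k1

end Crest.Agent.X212.Alg43
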